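import Vale.Agent.Lib.P012.helper17.Batch

namespace Vale.Agent.Lib.P012

open Finset

theorem pool_numeric (ρ : ℕ) (hρ : 16 ≤ ρ) :
    16 * ρ * (2 ^ (ρ + 1) + 4) + 16 * ρ + 1 < 2 ^ (16 * ρ) := by
  -- 2^(16ρ) = (2^ρ)^16 ; with x = 2^ρ ≥ 2^16 and ρ < 2^ρ
  have hx : ρ < 2 ^ ρ := Nat.lt_two_pow_self
  have h16 : 2 ^ 16 ≤ 2 ^ ρ := Nat.pow_le_pow_right (by norm_num) hρ
  have e1 : 2 ^ (16 * ρ) = (2 ^ ρ) ^ 16 := by rw [← pow_mul, mul_comm]
  have e2 : 2 ^ (ρ + 1) = 2 * 2 ^ ρ := by rw [pow_succ, mul_comm]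
  rw [e1, e2]
  generalize 2 ^ ρ = x at *
  have h3 : x ^ 3 ≤ x ^ 16 := Nat.pow_le_pow_right (by omega) (by norm_num)
  have hx2 : 65536 ≤ x := by simpa using h16
  nlinarith [Nat.zero_le ρ, Nat.zero_le x, mul_le_mul hx.le hx.le (Nat.zero_le _) (Nat.zero_le _),
    mul_le_mul hx2 hx2 (Nat.zero_le _) (Nat.zero_le _),
    mul_le_mul (mul_le_mul hx2 hx2 (Nat.zero_le _) (Nat.zero_le _)) hx2 (Nat.zero_le _) (Nat.zero_le _)]

theorem primes_many (ρ : ℕ) (hρ : 16 ≤ ρ) :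
    2 ^ (ρ + 1) + 4 ≤ (Nat.primesLE (2 ^ (16 * ρ))).card := by
  have h1 := primes_count (16 * ρ)
  have h2 := pool_numeric ρ hρ
  by_contra hlt
  push Not at hlt
  have h3 : 16 * ρ * (Nat.primesLE (2 ^ (16 * ρ))).card ≤ 16 * ρ * (2 ^ (ρ + 1) + 4) :=
    Nat.mul_le_mul_left _ hlt.le
  omega

theorem exists_poolData (ρ : ℕ) (hρ : 16 ≤ ρ) : ∃ S W PA PB : Finset ℕ, PoolData ρ S W PA PB := by
  obtain ⟨S, hSsub, hScard⟩ := Finset.exists_subset_card_eq (primes_many ρ hρ)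
  have hW : 4 ≤ S.card := by rw [hScard]; exact Nat.le_add_left 4 _
  obtain ⟨W, hWsub, hWcard⟩ := Finset.exists_subset_card_eq hW
  have hSW : (S \ W).card = 2 ^ (ρ + 1) := by
    rw [Finset.card_sdiff_of_subset hWsub, hScard, hWcard]; exact Nat.add_sub_cancel _ _
  have hpow : 2 ^ (ρ + 1) = 2 ^ ρ + 2 ^ ρ := by ring
  have hA : 2 ^ ρ ≤ (S \ W).card := by rw [hSW, hpow]; exact Nat.le_add_left _ _
  obtain ⟨PA, hPAsub, hPAcard⟩ := Finset.exists_subset_card_eq hA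
  have hSWA : ((S \ W) \ PA).card = 2 ^ ρ := by
    rw [Finset.card_sdiff_of_subset hPAsub, hSW, hPAcard, hpow]; exact Nat.add_sub_cancel _ _
  obtain ⟨PB, hPBsub, hPBcard⟩ := Finset.exists_subset_card_eq hSWA.ge
  refine ⟨S, W, PA, PB, ?_, ?_, hWsub, hWcard, ?_, ?_, ?_, ?_, ?_, hPAcard, hPBcard, hScard⟩
  · intro p hp
    exact (Nat.mem_primesLE.mp (hSsub hp)).2
  · intro p hp
    exact (Nat.mem_primesLE.mp (hSsub hp)).1
  · exact hPAsub.trans Finset.sdiff_subset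
  · exact (hPBsub.trans Finset.sdiff_subset).trans Finset.sdiff_subset
  · rw [Finset.disjoint_left]
    intro a haW haA
    exact (Finset.mem_sdiff.mp (hPAsub haA)).2 haW
  · rw [Finset.disjoint_left]
    intro a haW haB
    exact (Finset.mem_sdiff.mp (Finset.mem_sdiff.mp (hPBsub haB)).1).2 haW
  · rw [Finset.disjoint_left]
    intro a haA haB
    exact (Finset.mem_sdiff.mp (hPBsub haB)).2 haA

end Vale.Agent.Lib.P012
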